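import Vale.Agent.P183M.IF3
import Vale.Agent.P183WD.Main

/-!
Equivariance of the coefficients of root elements under Frobenius shifts and under the involution.
-/

set_option autoImplicit false

namespace Vale.Agent.P183EQ

open Matrix Vale.Agent.P183M

section
variable {p : ℕ} {G : Type} [Group G] {R F0 : Type} [CommRing R] [Field F0] {d : ℕ}
  {D : Dat G R F0 d} {k : Type} [Field k] {n : ℕ}

lemma adj (h : CD p D) (g : G) : ((D.ρ g).map D.σ)ᵀ * D.J = D.J * D.ρ g⁻¹ := by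
  ext a b
  have h1 := h.inv' g (ee a) (ee b)
  rw [D.β_ee_left, mulVec_mulVec, mulVec_ee] at h1
  rw [← h1, Dat.β, mul_apply, dotProduct]
  refine Finset.sum_congr rfl fun c _ => ?_
  rw [mulVec_ee, mulVec_ee]
  rfl

lemma adj_map (h : CD p D) (θ : R →+* k) (g : G) :
    ((D.ρ g).map (θ.comp (D.σ : R →+* R)))ᵀ * D.J.map θ = D.J.map θ * (D.ρ g⁻¹).map θ := by
  rw [← Matrix.map_mul, ← adj h, Matrix.map_mul]
  rfl

lemma unit_J (h : CD p D) (θ : R →+* k) : IsUnit (D.J.map θ) := by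
  have := ((isUnit_iff_isUnit_det _).2 h.nondeg).map (θ.mapMatrix : Matrix _ _ R →+* _)
  exact this

variable [hp : Fact p.Prime] [CharP k p] [IsAlgClosed k] [Fintype F0] [CharP F0 p]
  {τ τ' : G →* Matrix (Fin n) (Fin n) k}

lemma cf_sh (h : CD p D) (T : TV D τ) (g : k ≃+* k) (e : ∀ x, τ' x = (τ x).map g)
    (S : Finset (F0 →+* k)) (y : G) :
    CF p D τ' (S.image (ac g)) y = (CF p D τ S y).map g := by
  have := Sp.cf_semi (p := p) (T.sp h y) g
    ((g : k →+* k).mapMatrix : Matrix (Fin n) (Fin n) k →+* _).toAddMonoidHom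
    (fun c w => Matrix.map_smul' _ _ _ (map_mul (g : k →+* k))) S
  simp only [CF, e]
  exact this

lemma cf_bar (h : CD p D) (nn : D.N0 * D.N0 = 0) (T : TV D τ) (J : Matrix (Fin n) (Fin n) k)
    (e : ∀ x, (τ' x)ᵀ * J = J * τ x⁻¹) (S : Finset (F0 →+* k)) (y : G) :
    (CF p D τ' S y)ᵀ * J = J * ((-1 : k) ^ S.card • CF p D τ S y) := by
  have h1 := cf_map (p := p) S (fun t => τ' (D.xx y t))
    ((LinearMap.mulRight k J).comp (transposeLinearEquiv (Fin n) (Fin n) k k).toLinearMap)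
  have h2 := cf_map (p := p) S (fun t => τ (D.xx y (-t))) (LinearMap.mulLeft k J)
  rw [Sp.cf_neg (T.sp h y)] at h2
  refine h1.trans (Eq.trans (congrArg _ (funext fun t => ?_)) h2.symm)
  rw [h.xx_neg nn]
  exact e _

lemma dg_sh (g : k ≃+* k) (e : ∀ S y, CF p D τ' (S.image (ac g)) y = (CF p D τ S y).map g) :
    Dg p D τ' = ac g '' Dg p D τ := by
  have h1 : ∀ b, ac g b ∈ Dg p D τ' ↔ b ∈ Dg p D τ := fun b => by
    have := e {b} 1
    rw [Finset.image_singleton] at this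
    refine not_congr ?_
    rw [this]
    exact map_eq_zero_iff (g.mapMatrix : Matrix (Fin n) (Fin n) k ≃+* _) (RingEquiv.injective _)
  ext a
  have h2 : ac g (ac g.symm a) = a := RingHom.ext fun r => g.apply_symm_apply _
  refine ⟨fun ha => ⟨_, (h1 _).1 (h2.symm ▸ ha), h2⟩, ?_⟩
  rintro ⟨b, hb, rfl⟩
  exact (h1 b).2 hb

lemma dg_bar {J : Matrix (Fin n) (Fin n) k} (hJ : IsUnit J)
    (e : ∀ S y, (CF p D τ' S y)ᵀ * J = J * ((-1 : k) ^ S.card • CF p D τ S y)) :
    Dg p D τ' = Dg p D τ := by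
  ext a
  have := e {a} 1
  rw [Finset.card_singleton, pow_one, neg_one_smul] at this
  refine not_congr ?_
  rw [← transpose_eq_zero, ← hJ.mul_left_eq_zero, this, hJ.mul_right_eq_zero, neg_eq_zero]

lemma aa_sh (g : k ≃+* k) (e : ∀ S y, CF p D τ' (S.image (ac g)) y = (CF p D τ S y).map g)
    {B : Set (F0 →+* k)} {M : Matrix (Fin n) (Fin n) k} (hM : M ∈ AA p D τ B) :
    M.map g ∈ AA p D τ' (ac g '' B) := by
  change (g : k →+* k).mapMatrix M ∈ _
  induction hM using Algebra.adjoin_induction with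
  | mem x hx =>
    obtain ⟨a, ha, y, rfl⟩ := hx
    have := e {a} y
    rw [Finset.image_singleton] at this
    exact (congrArg (· ∈ _) this).mp (AA_gen (Set.mem_image_of_mem _ ha) y)
  | algebraMap r =>
    convert Subalgebra.algebraMap_mem _ (g r) using 1
    ext a b
    simp only [RingHom.mapMatrix_apply, map_apply, algebraMap_matrix_apply]
    split_ifs
    · rfl
    · exact map_zero _
  | add x y _ _ hx hy =>
    rw [map_add]
    exact add_mem hx hy
  | mul x y _ _ hx hy =>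
    rw [map_mul]
    exact mul_mem hx hy

lemma aa_bar {J : Matrix (Fin n) (Fin n) k}
    (e : ∀ S y, (CF p D τ' S y)ᵀ * J = J * ((-1 : k) ^ S.card • CF p D τ S y))
    {B : Set (F0 →+* k)} {M : Matrix (Fin n) (Fin n) k} (hM : M ∈ AA p D τ' B) :
    ∃ N ∈ AA p D τ B, Mᵀ * J = J * N := by
  induction hM using Algebra.adjoin_induction with
  | mem x hx =>
    obtain ⟨a, ha, y, rfl⟩ := hx
    exact ⟨_, Subalgebra.smul_mem _ (AA_gen ha y) _, e {a} y⟩
  | algebraMap r =>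
    refine ⟨_, Subalgebra.algebraMap_mem _ r, ?_⟩
    rw [← Algebra.commutes, Algebra.algebraMap_eq_smul_one, transpose_smul, transpose_one]
  | add x y _ _ hx hy =>
    obtain ⟨N, hN, e1⟩ := hx
    obtain ⟨N', hN', e2⟩ := hy
    exact ⟨_, add_mem hN hN', by rw [transpose_add, add_mul, e1, e2, mul_add]⟩
  | mul x y _ _ hx hy =>
    obtain ⟨N, hN, e1⟩ := hx
    obtain ⟨N', hN', e2⟩ := hy
    exact ⟨_, mul_mem hN' hN, by
      rw [transpose_mul, mul_assoc, e1, ← mul_assoc, e2, mul_assoc]⟩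

end

theorem eq : EQ := by
  intro p _ G _ T T' C C' ψ hm _ hA θ
  obtain ⟨V⟩ := hA θ
  obtain ⟨a, b, c, y, i, j, l, v, hw⟩ := P183WD.wd p _ _ _ _ C.D C.cd hm
  have e1 := fun j : ℤ => cf_sh (τ' := C.tt C' ψ (sh p j θ)) C.cd V (fz p j) fun _ => rfl
  have e2 := cf_bar (τ' := C.tt C' ψ (C'.bar θ)) C.cd hw.nn V (C'.D.J.map θ) fun x => by
    have := adj_map C'.cd θ (ψ x)
    rw [← map_inv] at this
    exact this
  have hJ := unit_J C'.cd θ
  refine ⟨e1, e2, fun j => dg_sh _ (e1 j), dg_bar hJ e2, fun j B ω h => aa_sh _ (e1 j) h,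
    fun B ω h => ?_⟩
  obtain ⟨N, hN, e⟩ := aa_bar e2 h
  have h1 : (C'.D.ρ ω⁻¹).map θ = N := hJ.mul_left_cancel ((adj_map C'.cd θ ω).symm.trans e)
  obtain ⟨m, hm⟩ : ω ∈ Submonoid.powers ω⁻¹ :=
    mem_powers_iff_mem_zpowers.2 (by rw [Subgroup.zpowers_inv]; exact Subgroup.mem_zpowers ω)
  have h2 : (C'.D.ρ ω).map θ = N ^ m := by
    rw [← h1, ← tw_apply, ← tw_apply, ← map_pow]
    exact congrArg _ hm.symm
  rw [h2]
  exact pow_mem hN m

end Vale.Agent.P183EQ
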